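import Vale.Agent.P060.Consequences

/-!
P060: complete minors in graphs whose complement has small maximum degree.
-/

namespace Vale.Agent.Results.P060.DenseGraphs

open Vale.Agent.P060Dense

theorem result : ∀ (V : Type) [Fintype V] (G : SimpleGraph V) (d : ℕ),
    (∀ v, {w | w ≠ v ∧ ¬ G.Adj v w}.ncard ≤ d) →
      (625 * (d + 1) ^ 3 ≤ Fintype.card V ^ 2 →
        HasCompleteMinor G ((Fintype.card V + 1) / 2)) ∧
      (10 * (d + 1) ^ 3 ≤ {v | ∃ w, w ≠ v ∧ ¬ G.Adj v w}.ncard →
        ∃ t, G.Colorable t ∧ HasCompleteMinor G t) := by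
  intro V _ G d hd
  classical
  have e : ∀ v, ((non G v : Finset V) : Set V) = {w | w ≠ v ∧ ¬ G.Adj v w} := by
    intro v
    ext w
    simp [mem_non, ne_comm]
  have hd' : ∀ v, (non G v).card ≤ d := by
    intro v
    have := hd v
    rwa [← e v, Set.ncard_coe_finset] at this
  refine ⟨halfMinor d hd', fun hn => hadwiger_dense d hd' (le_of_le_of_eq hn ?_)⟩
  rw [← Set.ncard_coe_finset]
  congr 1
  ext v
  simp [Finset.Nonempty, mem_non, ne_comm]

end Vale.Agent.Results.P060.DenseGraphs
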